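import Vale.Agent.P054.Wt

/-!
P054: number of pairs of integer points of a cube which are orthogonal for a nondegenerate form,
uniformly in the form.
-/

namespace Vale.Agent.P054

open Finset

noncomputable section

/-- primitive integer vector -/
def Prim {d : ℕ} (m : Fin d → ℤ) : Prop := ∀ e : ℤ, (∀ i, e ∣ m i) → IsUnit e

theorem Prim.ne {d : ℕ} {m : Fin d → ℤ} (h : Prim m) : m ≠ 0 := by
  rintro rfl
  have h1 := h 0 (fun i => dvd_zero _)
  exact not_isUnit_zero h1

/-- integer vector as a real vector -/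
def rl {d : ℕ} (a : Fin d → ℤ) : Fin d → ℝ := fun i => (a i : ℝ)

/-- every nonzero integer vector is a positive multiple of a primitive one -/
theorem exists_prim {d : ℕ} (a : Fin d → ℤ) (ha : a ≠ 0) :
    ∃ (g : ℕ) (z : Fin d → ℤ), 0 < g ∧ Prim z ∧ ∀ i, a i = g * z i := by
  have hne : (univ : Finset (Fin d)).Nonempty := by
    by_contra hc
    apply ha
    funext i
    exact absurd ⟨i, mem_univ i⟩ hc
  obtain ⟨z, hz, hz1⟩ := Finset.extract_gcd a hne
  have hg : univ.gcd a ≠ 0 := by
    intro h0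
    apply ha
    funext i
    rw [hz i (mem_univ i), h0, zero_mul]
    rfl
  have hgn : normalize (univ.gcd a) = univ.gcd a := Finset.normalize_gcd
  have hg0 : 0 ≤ univ.gcd a := Int.nonneg_of_normalize_eq_self hgn
  refine ⟨(univ.gcd a).natAbs, z, Int.natAbs_pos.mpr hg, ?_, ?_⟩
  · intro e he
    have h1 : e ∣ univ.gcd z := Finset.dvd_gcd fun i _ => he i
    rw [hz1] at h1
    exact isUnit_of_dvd_one h1
  · intro i
    rw [hz i (mem_univ i)]
    congr 1
    omega

/-- uniqueness of the primitive vector on a ray -/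
theorem prim_unique {d : ℕ} {m m' : Fin d → ℤ} (h : Prim m) (h' : Prim m') {l l' : ℝ}
    (hl : 0 < l) (hl' : 0 < l') (he : ∀ i, l * m i = l' * m' i) : m = m' := by
  -- cross products
  have hx : ∀ i j, m i * m' j = m j * m' i := by
    intro i j
    have h1 := he i
    have h2 := he j
    have h3 : (l * l') * ((m i : ℝ) * m' j) = (l * l') * ((m j : ℝ) * m' i) := by
      calc (l * l') * ((m i : ℝ) * m' j) = (l * m i) * (l' * m' j) := by ring
        _ = (l' * m' i) * (l * m j) := by rw [h1, ← h2]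
        _ = _ := by ring
    have h4 := mul_left_cancel₀ (mul_pos hl hl').ne' h3
    exact_mod_cast h4
  have key : ∀ {m m' : Fin d → ℤ}, Prim m → (∀ i j, m i * m' j = m j * m' i) →
      ∀ j, m j ∣ m' j := by
    intro m m' hm hx j
    have h1 : m j ∣ univ.gcd (fun i => m' j * m i) := Finset.dvd_gcd fun i _ => by
      rw [mul_comm, hx i j]
      exact dvd_mul_right _ _
    rw [Finset.gcd_mul_left] at h1
    have h2 : IsUnit (univ.gcd m) := hm _ fun i => Finset.gcd_dvd (mem_univ i)
    have h3 : m j ∣ normalize (m' j) := by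
      rwa [h2.dvd_mul_right] at h1
    exact h3.trans (normalize_associated (m' j)).dvd
  funext j
  have h1 := key h hx j
  have h2 := key h' (fun i j => by rw [mul_comm, hx j i, mul_comm]) j
  have h3 := Int.natAbs_eq_of_dvd_dvd h1 h2
  rcases Int.natAbs_eq_natAbs_iff.mp h3 with h4 | h4
  · exact h4
  · have h5 := he j
    rw [h4] at h5
    push_cast at h5
    have h6 : (m' j : ℝ) = 0 := by
      have : (l + l') * (m' j : ℝ) = 0 := by linarith
      exact (mul_eq_zero.mp this).resolve_left (by positivity)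
    have h7 : m' j = 0 := by exact_mod_cast h6
    rw [h4, h7, neg_zero]

/-- `c` is a positive multiple of the primitive vector `m` -/
def Rat' {d : ℕ} (c : Fin d → ℝ) (m : Fin d → ℤ) : Prop :=
  Prim m ∧ ∃ l : ℝ, 0 < l ∧ ∀ i, c i = l * m i

/-- a vector with rational ratios is a multiple of a primitive one -/
theorem rat_of {d : ℕ} (c : Fin d → ℝ) (j : Fin d) (hj : c j ≠ 0)
    (h : ∀ i, ∃ r : ℚ, c i = r * c j) : ∃ m, Rat' c m := by
  choose r hr using h
  obtain ⟨D, hD⟩ := IsLocalization.exist_integer_multiples_of_finite (nonZeroDivisors ℤ) r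
  choose n hn using hD
  have hD0 : ((D : ℤ) : ℝ) ≠ 0 := by
    have := nonZeroDivisors.ne_zero D.2
    exact_mod_cast this
  have hn' : ∀ i, ((n i : ℤ) : ℝ) = (D : ℤ) * (r i : ℝ) := by
    intro i
    have h1 := hn i
    have h2 : ((n i : ℤ) : ℚ) = ((D : ℤ) : ℚ) * r i := by
      simpa [Algebra.smul_def] using h1
    exact_mod_cast h2
  have hc : ∀ i, c i = (c j / (D : ℤ)) * n i := by
    intro i
    rw [hn' i, hr i]
    field_simp
  have hcD : c j / ((D : ℤ) : ℝ) ≠ 0 := div_ne_zero hj hD0
  have hn0 : n ≠ 0 := by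
    intro h0
    apply hj
    rw [hc j, h0]
    simp
  rcases lt_or_gt_of_ne hcD with hneg | hpos
  · have hn1 : (fun i => -n i) ≠ 0 := by
      intro h0
      apply hn0
      funext i
      have := congrFun h0 i
      simpa using this
    obtain ⟨g, z, hg, hz, hgz⟩ := exists_prim _ hn1
    refine ⟨z, hz, -(c j / (D : ℤ)) * g, ?_, ?_⟩
    · have : (0 : ℝ) < g := by exact_mod_cast hg
      nlinarith
    · intro i
      have h1 : ((-n i : ℤ) : ℝ) = g * z i := by exact_mod_cast hgz i
      push_cast at h1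
      rw [hc i]
      calc c j / ((D : ℤ) : ℝ) * (n i : ℝ) = -(c j / (D : ℤ)) * (-(n i : ℝ)) := by ring
        _ = -(c j / (D : ℤ)) * (g * z i) := by rw [h1]
        _ = _ := by ring
  · obtain ⟨g, z, hg, hz, hgz⟩ := exists_prim n hn0
    refine ⟨z, hz, (c j / (D : ℤ)) * g, ?_, ?_⟩
    · have : (0 : ℝ) < g := by exact_mod_cast hg
      positivity
    · intro i
      have h1 : ((n i : ℤ) : ℝ) = g * z i := by exact_mod_cast hgz i
      rw [hc i, h1]
      ring

/-- number of points of the cube on the hyperplane `c` -/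
def hp {d : ℕ} (t : ℕ) (c : Fin d → ℝ) : Finset (Fin d → ℤ) :=
  (Box d t).filter (fun b => ∑ i, c i * b i = 0)

/-- rational case -/
theorem hp_rat (t k : ℕ) {c : Fin (k + 3) → ℝ} {m : Fin (k + 3) → ℤ} (h : Rat' c m) :
    ((hp t c).card : ℝ) ≤ ((2 * t + 1 : ℕ) : ℝ) ^ (k + 2) * (1 / (sz m : ℝ))
      + 2 ^ (k + 2) * ((2 * t + 1 : ℕ) : ℝ) ^ (k + 1) := by
  obtain ⟨hm, l, hl, hc⟩ := h
  obtain ⟨j, hj⟩ := exists_sz m
  have hs := sz_pos hm.ne
  have hj0 : m j ≠ 0 := by
    intro h0
    rw [h0] at hj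
    simp at hj
    omega
  have h1 := hyper t (k + 2) m hm j hj0
  have h2 : hp t c = (Box (k + 3) t).filter (fun b => ∑ i, m i * b i = 0) := by
    unfold hp
    refine filter_congr fun b _ => ?_
    have e : ∑ i, c i * (b i : ℝ) = l * ((∑ i, m i * b i : ℤ) : ℝ) := by
      push_cast
      rw [mul_sum]
      exact sum_congr rfl fun i _ => by rw [hc i]; ring
    rw [e]
    constructor
    · intro h3
      have := (mul_eq_zero.mp h3).resolve_left hl.ne'
      exact_mod_cast this
    · intro h3
      rw [h3]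
      simp
  rw [h2]
  refine h1.trans ?_
  rw [hj]
  push_cast
  have hN : (0 : ℝ) < 2 * t + 1 := by positivity
  have e1 : (2 * (t : ℝ) + 1) ^ (k + 2) / (2 * t + 1) = (2 * (t : ℝ) + 1) ^ (k + 1) := by
    rw [pow_succ]
    field_simp
  rw [e1]
  have h3 : (2 ^ (k + 2) - 1) * (2 * (t : ℝ) + 1) ^ (k + 1) ≤
      2 ^ (k + 2) * (2 * (t : ℝ) + 1) ^ (k + 1) := by
    refine mul_le_mul_of_nonneg_right (by linarith) (by positivity)
  have e2 : (2 * (t : ℝ) + 1) ^ (k + 2) / (sz m : ℝ) =
      (2 * (t : ℝ) + 1) ^ (k + 2) * (1 / (sz m : ℝ)) := by ring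
  rw [e2]
  linarith

/-- irrational case -/
theorem hp_irr (t k : ℕ) {c : Fin (k + 3) → ℝ} (h0 : c ≠ 0) (h : ¬ ∃ m, Rat' c m) :
    ((hp t c).card : ℝ) ≤ ((2 * t + 1 : ℕ) : ℝ) ^ (k + 1) := by
  obtain ⟨j, hj⟩ : ∃ j, c j ≠ 0 := by
    by_contra hc
    push Not at hc
    exact h0 (funext hc)
  have h1 : ¬ ∀ i, ∃ r : ℚ, c i = r * c j := fun h2 => h (rat_of c j hj h2)
  push Not at h1
  obtain ⟨i, hi⟩ := h1
  have hij : i ≠ j := by
    rintro rfl
    exact hi 1 (by simp)
  -- restrict to the other coordinates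
  have h2 : (hp t c).card ≤
      (Fintype.piFinset (fun _ : {x : Fin (k + 3) // x ≠ i ∧ x ≠ j} =>
        Finset.Icc (-(t : ℤ)) t)).card := by
    refine card_le_card_of_injOn (fun b => fun x => b x.1) ?_ ?_
    · intro b hb
      rw [mem_coe, hp, mem_filter, mem_Box] at hb
      rw [mem_coe, Fintype.mem_piFinset]
      intro x
      rw [Finset.mem_Icc]
      exact hb.1 x.1
    · intro b hb b2 hb2 he
      rw [mem_coe, hp, mem_filter] at hb hb2
      have h3 : ∀ x, x ≠ i → x ≠ j → b x = b2 x := fun x hx hx' =>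
        congrFun he ⟨x, hx, hx'⟩
      have h4 : c i * ((b i : ℝ) - b2 i) + c j * ((b j : ℝ) - b2 j) = 0 := by
        have h5 : ∑ x, c x * ((b x : ℝ) - b2 x) = 0 := by
          have : ∑ x, c x * ((b x : ℝ) - b2 x) = ∑ x, c x * (b x : ℝ) - ∑ x, c x * (b2 x : ℝ) := by
            rw [← sum_sub_distrib]
            exact sum_congr rfl fun x _ => by ring
          rw [this, hb.2, hb2.2, sub_zero]
        have h6 : ∑ x, c x * ((b x : ℝ) - b2 x) =
            ∑ x ∈ ({i, j} : Finset (Fin (k + 3))), c x * ((b x : ℝ) - b2 x) := by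
          refine (sum_subset (subset_univ _) fun x _ hx => ?_).symm
          rw [mem_insert, mem_singleton, not_or] at hx
          rw [h3 x hx.1 hx.2]
          ring
        rw [h6, sum_pair hij] at h5
        exact h5
      have h5 : b i = b2 i := by
        by_contra hne
        have h6 : ((b i : ℝ) - b2 i) ≠ 0 := by
          intro h7
          apply hne
          have : (b i : ℝ) = b2 i := by linarith
          exact_mod_cast this
        refine hi (-(((b j : ℚ) - b2 j) / ((b i : ℚ) - b2 i))) ?_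
        push_cast
        field_simp
        linarith
      have h6 : b j = b2 j := by
        rw [h5, sub_self, mul_zero, zero_add] at h4
        have h7 := (mul_eq_zero.mp h4).resolve_left hj
        have : (b j : ℝ) = b2 j := by linarith
        exact_mod_cast this
      funext x
      by_cases hx : x = i
      · rw [hx, h5]
      · by_cases hx' : x = j
        · rw [hx', h6]
        · exact h3 x hx hx'
  have h3 : (Fintype.piFinset (fun _ : {x : Fin (k + 3) // x ≠ i ∧ x ≠ j} =>
        Finset.Icc (-(t : ℤ)) t)).card = (2 * t + 1) ^ (k + 1) := by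
    rw [Fintype.card_piFinset]
    simp only [Int.card_Icc, prod_const, card_univ]
    have e1 : Fintype.card {x : Fin (k + 3) // x ≠ i ∧ x ≠ j} = k + 1 := by
      rw [Fintype.card_subtype]
      have : (univ.filter (fun x : Fin (k + 3) => x ≠ i ∧ x ≠ j)) = (univ.erase i).erase j := by
        ext x
        simp [and_comm]
      rw [this, card_erase_of_mem (by simp [hij.symm]), card_erase_of_mem (mem_univ _), card_univ,
        Fintype.card_fin]
      omega
    rw [e1]
    congr 1
    omega
  rw [h3] at h2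
  exact_mod_cast h2

end

end Vale.Agent.P054
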