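import Vale.Agent.P054.Pairs

/-!
P054: from orthogonal pairs to distinct distances (pinned).
-/

namespace Vale.Agent.P054

open Finset

noncomputable section

/-- Cauchy-Schwarz, pinned: `E` bounds the number of pairs of difference vectors with the same
value of `F` -/
theorem pinned {r : ℕ} (X D : Finset (Fin r → ℤ)) (F : (Fin r → ℤ) → ℝ) (p : Fin r → ℤ)
    (hD : ∀ x ∈ X, x - p ∈ D) (E : ℝ)
    (hE : (((D ×ˢ D).filter (fun v => F v.1 = F v.2)).card : ℝ) ≤ E) :
    (X.card : ℝ) ^ 2 ≤ ((X.image (fun x => F (x - p))).card : ℝ) * E := by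
  classical
  have h2 : (X.card : ℝ) = ∑ v ∈ X.image (fun x => F (x - p)),
      ((X.filter (fun x => F (x - p) = v)).card : ℝ) := by
    have := card_eq_sum_card_fiberwise (f := fun x => F (x - p)) (s := X)
      (t := X.image (fun x => F (x - p))) (fun x hx => mem_image_of_mem _ hx)
    exact_mod_cast this
  have h3 : ((((X ×ˢ X).filter (fun z => F (z.1 - p) = F (z.2 - p))).card : ℕ) : ℝ) =
      ∑ v ∈ X.image (fun x => F (x - p)),
        ((X.filter (fun x => F (x - p) = v)).card : ℝ) ^ 2 := by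
    have h4 := card_eq_sum_card_fiberwise (f := fun z : (Fin r → ℤ) × (Fin r → ℤ) => F (z.1 - p))
      (s := (X ×ˢ X).filter (fun z => F (z.1 - p) = F (z.2 - p)))
      (t := X.image (fun x => F (x - p))) (fun z hz => by
        rw [mem_coe, mem_filter, mem_product] at hz
        exact mem_image_of_mem _ hz.1.1)
    rw [h4]
    push_cast
    refine sum_congr rfl fun v _ => ?_
    have h5 : ((X ×ˢ X).filter (fun z => F (z.1 - p) = F (z.2 - p))).filter
        (fun z => F (z.1 - p) = v) =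
        (X.filter (fun x => F (x - p) = v)) ×ˢ (X.filter (fun x => F (x - p) = v)) := by
      ext z
      simp only [mem_filter, mem_product]
      constructor
      · rintro ⟨⟨⟨a, b⟩, c⟩, d⟩
        exact ⟨⟨a, d⟩, b, c ▸ d⟩
      · rintro ⟨⟨a, b⟩, c, d⟩
        exact ⟨⟨⟨a, c⟩, b.trans d.symm⟩, b⟩
    rw [h5, card_product]
    push_cast
    ring
  have h6 : ((((X ×ˢ X).filter (fun z => F (z.1 - p) = F (z.2 - p))).card : ℕ) : ℝ) ≤ E := by
    refine le_trans ?_ hE
    have : ((X ×ˢ X).filter (fun z => F (z.1 - p) = F (z.2 - p))).card ≤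
        ((D ×ˢ D).filter (fun v => F v.1 = F v.2)).card := by
      refine card_le_card_of_injOn (fun z => (z.1 - p, z.2 - p)) ?_ ?_
      · intro z hz
        rw [mem_coe, mem_filter, mem_product] at hz
        rw [mem_coe, mem_filter, mem_product]
        exact ⟨⟨hD _ hz.1.1, hD _ hz.1.2⟩, hz.2⟩
      · intro z _ z' _ h
        rw [Prod.mk.injEq] at h
        exact Prod.ext (sub_left_injective h.1) (sub_left_injective h.2)
    exact_mod_cast this
  have h7 : (X.card : ℝ) ^ 2 ≤ ((X.image (fun x => F (x - p))).card : ℝ) *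
      ((((X ×ˢ X).filter (fun z => F (z.1 - p) = F (z.2 - p))).card : ℕ) : ℝ) := by
    rw [h3]
    nth_rewrite 1 [h2]
    exact sq_sum_le_card_mul_sum_sq
  exact h7.trans (mul_le_mul_of_nonneg_left h6 (Nat.cast_nonneg _))

section Inner

variable {V : Type*} [NormedAddCommGroup V] [InnerProductSpace ℝ V]

/-- the lattice map -/
def lm {r : ℕ} (b : Fin r → V) (k : Fin r → ℤ) : V := ∑ i, (k i : ℝ) • b i

theorem lm_sub {r : ℕ} (b : Fin r → V) (k l : Fin r → ℤ) : lm b (k - l) = lm b k - lm b l := by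
  unfold lm
  rw [← sum_sub_distrib]
  refine sum_congr rfl fun i _ => ?_
  rw [Pi.sub_apply, ← sub_smul]
  push_cast
  rfl

theorem lm_add {r : ℕ} (b : Fin r → V) (k l : Fin r → ℤ) : lm b (k + l) = lm b k + lm b l := by
  unfold lm
  rw [← sum_add_distrib]
  refine sum_congr rfl fun i _ => ?_
  rw [Pi.add_apply, ← add_smul]
  push_cast
  rfl

theorem lm_inj {r : ℕ} {b : Fin r → V} (hb : LinearIndependent ℝ b) : Function.Injective (lm b) := by
  intro k l h
  have h1 : ∑ i, ((k i : ℝ) - l i) • b i = 0 := by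
    have : ∑ i, ((k i : ℝ) - l i) • b i = lm b k - lm b l := by
      unfold lm
      rw [← sum_sub_distrib]
      exact sum_congr rfl fun i _ => sub_smul _ _ _
    rw [this, h, sub_self]
  have h2 := Fintype.linearIndependent_iff.mp hb _ h1
  funext i
  have h3 := h2 i
  have h4 : (k i : ℝ) = l i := by linarith
  exact_mod_cast h4

/-- the Gram map -/
def gm {r : ℕ} (b : Fin r → V) : (Fin r → ℝ) →ₗ[ℝ] (Fin r → ℝ) where
  toFun x i := inner ℝ (∑ j, x j • b j) (b i)
  map_add' x y := by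
    funext i
    rw [Pi.add_apply, ← inner_add_left, ← sum_add_distrib]
    congr 1
    exact sum_congr rfl fun j _ => add_smul _ _ _
  map_smul' a x := by
    funext i
    rw [RingHom.id_apply, Pi.smul_apply, smul_eq_mul, ← real_inner_smul_left, smul_sum]
    congr 1
    exact sum_congr rfl fun j _ => by rw [Pi.smul_apply, smul_eq_mul, mul_smul]

theorem gm_inj {r : ℕ} {b : Fin r → V} (hb : LinearIndependent ℝ b) :
    Function.Injective (gm b) := by
  rw [injective_iff_map_eq_zero]
  intro x hx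
  have h1 : inner ℝ (∑ j, x j • b j) (∑ j, x j • b j) = (0 : ℝ) := by
    rw [inner_sum]
    refine sum_eq_zero fun i _ => ?_
    rw [real_inner_smul_right]
    have : inner ℝ (∑ j, x j • b j) (b i) = (0 : ℝ) := congrFun hx i
    rw [this, mul_zero]
  have h2 := inner_self_eq_zero.mp h1
  exact funext (Fintype.linearIndependent_iff.mp hb _ h2)

theorem hp_gm {r : ℕ} (t : ℕ) (b : Fin r → V) (a : Fin r → ℤ) :
    hp t (gm b (rl a)) = (Box r t).filter (fun x => inner ℝ (lm b a) (lm b x) = (0 : ℝ)) := by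
  unfold hp
  refine filter_congr fun x _ => ?_
  have e : ∑ i, gm b (rl a) i * (x i : ℝ) = inner ℝ (lm b a) (lm b x) := by
    unfold lm
    rw [inner_sum]
    refine sum_congr rfl fun i _ => ?_
    rw [real_inner_smul_right, mul_comm]
    rfl
  rw [e]

/-- pairs of differences with the same length -/
theorem energy (k : ℕ) : ∃ C : ℝ, 0 < C ∧ ∀ (V : Type) [NormedAddCommGroup V]
    [InnerProductSpace ℝ V] (b : Fin (k + 3) → V), LinearIndependent ℝ b → ∀ t : ℕ, 1 ≤ t →
    (((Box (k + 3) t ×ˢ Box (k + 3) t).filter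
      (fun v => ‖lm b v.1‖ = ‖lm b v.2‖)).card : ℝ) ≤ C * (t : ℝ) ^ (2 * k + 4) := by
  obtain ⟨C, hC, h⟩ := pairs k
  refine ⟨C * 5 ^ (2 * k + 4), by positivity, ?_⟩
  intro V _ _ b hb t ht
  have h1 := h (2 * t) (gm b) (gm_inj hb)
  have htR : (1 : ℝ) ≤ t := by exact_mod_cast ht
  have h2 : ((Box (k + 3) t ×ˢ Box (k + 3) t).filter
      (fun v => ‖lm b v.1‖ = ‖lm b v.2‖)).card ≤
      ((Box (k + 3) (2 * t)).sigma (fun a => hp (2 * t) (gm b (rl a)))).card := by
    refine card_le_card_of_injOn (fun v => ⟨v.1 - v.2, v.1 + v.2⟩) ?_ ?_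
    · intro v hv
      rw [mem_coe, mem_filter, mem_product, mem_Box, mem_Box] at hv
      obtain ⟨⟨hv1, hv2⟩, hv3⟩ := hv
      rw [mem_coe, mem_sigma, hp_gm, mem_filter, mem_Box, mem_Box]
      refine ⟨fun i => ?_, fun i => ?_, ?_⟩
      · have := hv1 i
        have := hv2 i
        show -((2 * t : ℕ) : ℤ) ≤ (v.1 - v.2) i ∧ (v.1 - v.2) i ≤ ((2 * t : ℕ) : ℤ)
        rw [Pi.sub_apply]
        push_cast
        omega
      · have := hv1 i
        have := hv2 i
        show -((2 * t : ℕ) : ℤ) ≤ (v.1 + v.2) i ∧ (v.1 + v.2) i ≤ ((2 * t : ℕ) : ℤ)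
        rw [Pi.add_apply]
        push_cast
        omega
      · show inner ℝ (lm b (v.1 - v.2)) (lm b (v.1 + v.2)) = (0 : ℝ)
        rw [lm_sub, lm_add, inner_sub_left, inner_add_right, inner_add_right,
          real_inner_self_eq_norm_sq, real_inner_self_eq_norm_sq, hv3,
          real_inner_comm (lm b v.1) (lm b v.2)]
        ring
    · intro v _ w _ h
      have h3 : v.1 - v.2 = w.1 - w.2 := congrArg Sigma.fst h
      have h4 : v.1 + v.2 = w.1 + w.2 := by
        have := congrArg Sigma.snd h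
        exact this
      have h5 : ∀ i, v.1 i = w.1 i ∧ v.2 i = w.2 i := by
        intro i
        have h6 := congrFun h3 i
        have h7 := congrFun h4 i
        rw [Pi.sub_apply, Pi.sub_apply] at h6
        rw [Pi.add_apply, Pi.add_apply] at h7
        omega
      exact Prod.ext (funext fun i => (h5 i).1) (funext fun i => (h5 i).2)
  rw [card_sigma] at h2
  have h3 : (((Box (k + 3) t ×ˢ Box (k + 3) t).filter
      (fun v => ‖lm b v.1‖ = ‖lm b v.2‖)).card : ℝ) ≤
      ∑ a ∈ Box (k + 3) (2 * t), ((hp (2 * t) (gm b (rl a))).card : ℝ) := by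
    exact_mod_cast h2
  refine h3.trans (h1.trans ?_)
  have h4 : ((2 * (2 * t) + 1 : ℕ) : ℝ) ≤ 5 * t := by
    push_cast
    linarith
  have h5 : ((2 * (2 * t) + 1 : ℕ) : ℝ) ^ (2 * k + 4) ≤ (5 * (t : ℝ)) ^ (2 * k + 4) :=
    pow_le_pow_left₀ (Nat.cast_nonneg _) h4 _
  refine (mul_le_mul_of_nonneg_left h5 hC.le).trans (le_of_eq ?_)
  rw [mul_pow]
  ring

end Inner

end

end Vale.Agent.P054
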