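import Vale.Agent.P054.Dist

/-!
P054: dense subsets of lattice cubes, final form.
-/

namespace Vale.Agent.P054

open Finset

noncomputable section

/-- the number of distinct distances from a pin, for a subset of a lattice cube -/
theorem pin_dist (k : ℕ) : ∃ c : ℝ, 0 < c ∧
    ∀ (d : ℕ) (o : EuclideanSpace ℝ (Fin d)) (b : Fin (k + 3) → EuclideanSpace ℝ (Fin d)),
    LinearIndependent ℝ b → ∀ (t : ℕ) (P : Finset (EuclideanSpace ℝ (Fin d))), 2 ≤ P.card →
    (∀ p ∈ P, ∃ x : Fin (k + 3) → ℤ, (∀ i, 1 ≤ x i ∧ x i ≤ t) ∧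
      p = o + ∑ i, (x i : ℝ) • b i) →
    ∀ q, (∃ x : Fin (k + 3) → ℤ, (∀ i, 1 ≤ x i ∧ x i ≤ t) ∧ q = o + ∑ i, (x i : ℝ) • b i) →
    c * ((P.card : ℝ) / (t : ℝ) ^ (k + 3)) ^ 2 *
      (P.card : ℝ) ^ (2 / ((k + 3 : ℕ) : ℝ)) ≤
      (((P.erase q).image (fun p => dist q p)).card : ℝ) := by
  classical
  obtain ⟨C, hC, hen⟩ := energy k
  refine ⟨1 / (2 * C), by positivity, ?_⟩
  intro d o b hb t P hP2 hP q hq
  -- integer coordinates
  have hex : ∀ p : EuclideanSpace ℝ (Fin d), ∃ x : Fin (k + 3) → ℤ, p ∈ P →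
      (∀ i, 1 ≤ x i ∧ x i ≤ t) ∧ p = o + lm b x := by
    intro p
    by_cases h : p ∈ P
    · obtain ⟨x, hx⟩ := hP p h
      exact ⟨x, fun _ => hx⟩
    · exact ⟨0, fun h' => absurd h' h⟩
  choose κ hκ using hex
  obtain ⟨y, hy, hqy⟩ := hq
  have hqy' : q = o + lm b y := hqy
  obtain ⟨X, hX⟩ : ∃ X, X = P.image κ := ⟨_, rfl⟩
  have hinj : Set.InjOn κ P := by
    intro p hp p' hp' h
    rw [(hκ p hp).2, (hκ p' hp').2, h]
  have hXP : X.card = P.card := by
    rw [hX]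
    exact card_image_of_injOn hinj
  have hPne : P.Nonempty := by
    rw [← card_pos]
    omega
  have ht : 1 ≤ t := by
    obtain ⟨p, hp⟩ := hPne
    have h1 := (hκ p hp).1 0
    omega
  have htR : (1 : ℝ) ≤ t := by exact_mod_cast ht
  have ht0 : (0 : ℝ) < t := by linarith
  have hXb : ∀ x ∈ X, ∀ i, 1 ≤ x i ∧ x i ≤ t := by
    intro x hx
    rw [hX, mem_image] at hx
    obtain ⟨p, hp, rfl⟩ := hx
    exact (hκ p hp).1
  have h1 := pinned X (Box (k + 3) t) (fun x => ‖lm b x‖) y (by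
    intro x hx
    rw [mem_Box]
    intro i
    have := hXb x hx i
    have := hy i
    rw [Pi.sub_apply]
    omega) (C * (t : ℝ) ^ (2 * k + 4)) (hen _ b hb t ht)
  -- the image
  have h2 : X.image (fun x => ‖lm b (x - y)‖) ⊆
      insert 0 ((P.erase q).image (fun p => dist q p)) := by
    intro v hv
    rw [mem_image] at hv
    obtain ⟨x, hx, rfl⟩ := hv
    rw [hX, mem_image] at hx
    obtain ⟨p, hp, rfl⟩ := hx
    have h3 : ‖lm b (κ p - y)‖ = dist q p := by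
      rw [dist_comm, dist_eq_norm]
      congr 1
      rw [lm_sub]
      nth_rewrite 2 [(hκ p hp).2]
      rw [hqy']
      abel
    rw [mem_insert]
    by_cases hpq : p = q
    · left
      rw [h3, hpq, dist_self]
    · right
      rw [h3]
      exact mem_image_of_mem _ (mem_erase.mpr ⟨hpq, hp⟩)
  obtain ⟨K, hK⟩ : ∃ K : ℕ, K = ((P.erase q).image (fun p => dist q p)).card := ⟨_, rfl⟩
  have h3 : ((X.image (fun x => ‖lm b (x - y)‖)).card : ℝ) ≤ 2 * (K : ℝ) := by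
    have h4 : (X.image (fun x => ‖lm b (x - y)‖)).card ≤ K + 1 := by
      refine (card_le_card h2).trans ?_
      rw [hK]
      exact card_insert_le _ _
    have h5 : 1 ≤ K := by
      rw [hK]
      refine card_pos.mpr ?_
      refine Nonempty.image ?_ _
      rw [← card_pos]
      have := pred_card_le_card_erase (s := P) (a := q)
      omega
    have h6 : (X.image (fun x => ‖lm b (x - y)‖)).card ≤ 2 * K := by omega
    exact_mod_cast h6
  rw [← hK]
  obtain ⟨n, hn⟩ : ∃ n : ℝ, n = (P.card : ℝ) := ⟨_, rfl⟩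
  have hn0 : 0 < n := by
    rw [hn]
    have : 0 < P.card := by omega
    exact_mod_cast this
  rw [hXP, ← hn] at h1
  rw [← hn]
  have h4 : n ^ 2 ≤ 2 * K * (C * (t : ℝ) ^ (2 * k + 4)) :=
    h1.trans (mul_le_mul_of_nonneg_right h3 (by positivity))
  -- size of the cube
  have h5 : n ≤ (t : ℝ) ^ (k + 3) := by
    have h6 : X ⊆ Fintype.piFinset (fun _ : Fin (k + 3) => Finset.Icc (1 : ℤ) t) := by
      intro x hx
      rw [Fintype.mem_piFinset]
      intro i
      rw [Finset.mem_Icc]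
      exact hXb x hx i
    have h7 := card_le_card h6
    rw [Fintype.card_piFinset] at h7
    simp only [Int.card_Icc, prod_const, card_univ, Fintype.card_fin] at h7
    have e : ((t : ℤ) + 1 - 1).toNat = t := by omega
    rw [e, hXP] at h7
    rw [hn]
    exact_mod_cast h7
  have h6 : n ^ (2 / ((k + 3 : ℕ) : ℝ)) ≤ (t : ℝ) ^ 2 := by
    have hk : (0 : ℝ) < ((k + 3 : ℕ) : ℝ) := by positivity
    calc n ^ (2 / ((k + 3 : ℕ) : ℝ)) ≤ ((t : ℝ) ^ (k + 3)) ^ (2 / ((k + 3 : ℕ) : ℝ)) :=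
          Real.rpow_le_rpow hn0.le h5 (by positivity)
      _ = (t : ℝ) ^ 2 := by
        rw [← Real.rpow_natCast (t : ℝ) (k + 3), ← Real.rpow_mul ht0.le,
          mul_div_cancel₀ _ hk.ne']
        exact Real.rpow_natCast _ 2
  have e1 : (t : ℝ) ^ (2 * k + 4) * (t : ℝ) ^ 2 = ((t : ℝ) ^ (k + 3)) ^ 2 := by
    rw [← pow_add, ← pow_mul]
    congr 1
    ring
  calc 1 / (2 * C) * (n / (t : ℝ) ^ (k + 3)) ^ 2 * n ^ (2 / ((k + 3 : ℕ) : ℝ))
      ≤ 1 / (2 * C) * (n / (t : ℝ) ^ (k + 3)) ^ 2 * (t : ℝ) ^ 2 :=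
        mul_le_mul_of_nonneg_left h6 (by positivity)
    _ = n ^ 2 / (2 * C * (t : ℝ) ^ (2 * k + 4)) := by
        rw [div_pow, ← e1]
        field_simp
    _ ≤ K := by
        rw [div_le_iff₀ (by positivity)]
        calc n ^ 2 ≤ 2 * K * (C * (t : ℝ) ^ (2 * k + 4)) := h4
          _ = K * (2 * C * (t : ℝ) ^ (2 * k + 4)) := by ring

end

end Vale.Agent.P054
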