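import Vale.Agent.P054.Cls

/-!
P054: the number of orthogonal pairs of integer points of a cube, uniformly in the form.
-/

namespace Vale.Agent.P054

open Finset

noncomputable section

theorem rl_ne {d : ℕ} {a : Fin d → ℤ} (h : a ≠ 0) : rl a ≠ 0 := by
  intro h0
  apply h
  funext i
  have : (a i : ℝ) = 0 := congrFun h0 i
  exact_mod_cast this

theorem hp_smul {d : ℕ} (t : ℕ) (c : Fin d → ℝ) {g : ℝ} (hg : g ≠ 0) :
    hp t (g • c) = hp t c := by
  unfold hp
  refine filter_congr fun b _ => ?_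
  have e : ∑ i, (g • c) i * (b i : ℝ) = g * ∑ i, c i * (b i : ℝ) := by
    rw [mul_sum]
    exact sum_congr rfl fun i _ => by rw [Pi.smul_apply, smul_eq_mul]; ring
  rw [e]
  constructor
  · intro h
    exact (mul_eq_zero.mp h).resolve_left hg
  · intro h
    rw [h, mul_zero]

/-- [PAIRS] -/
theorem pairs (k : ℕ) : ∃ C : ℝ, 0 < C ∧ ∀ (t : ℕ)
    (c : (Fin (k + 3) → ℝ) →ₗ[ℝ] (Fin (k + 3) → ℝ)), Function.Injective c →
    ∑ a ∈ Box (k + 3) t, ((hp t (c (rl a))).card : ℝ) ≤
      C * ((2 * t + 1 : ℕ) : ℝ) ^ (2 * k + 4) := by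
  obtain ⟨C0, hC0, hwt⟩ := wt_sum k
  refine ⟨1 + 2 ^ (k + 2) + 2 * C0, by positivity, ?_⟩
  intro t c hinj
  obtain ⟨N, hN⟩ : ∃ N : ℕ, N = 2 * t + 1 := ⟨_, rfl⟩
  have hN1 : 1 ≤ N := by omega
  have hNR : (1 : ℝ) ≤ N := by exact_mod_cast hN1
  have hN0 : (0 : ℝ) < N := by linarith
  rw [← hN]
  have h0mem : (0 : Fin (k + 3) → ℤ) ∈ Box (k + 3) t := by
    rw [mem_Box]
    intro i
    simp
  rw [← add_sum_erase _ _ h0mem]
  -- the zero vector
  have hz : ((hp t (c (rl (0 : Fin (k + 3) → ℤ)))).card : ℝ) ≤ (N : ℝ) ^ (2 * k + 4) := by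
    have h1 : (hp t (c (rl (0 : Fin (k + 3) → ℤ)))).card ≤ (Box (k + 3) t).card :=
      card_filter_le _ _
    rw [card_Box, ← hN] at h1
    have h2 : ((hp t (c (rl (0 : Fin (k + 3) → ℤ)))).card : ℝ) ≤ (N : ℝ) ^ (k + 3) := by
      exact_mod_cast h1
    exact h2.trans (pow_le_pow_right₀ hNR (by omega))
  -- choices
  classical
  obtain ⟨A, hA⟩ : ∃ A, A = (Box (k + 3) t).erase 0 := ⟨_, rfl⟩
  have hex : ∀ a : Fin (k + 3) → ℤ, ∃ (g : ℕ) (z : Fin (k + 3) → ℤ), a ≠ 0 →
      0 < g ∧ Prim z ∧ ∀ i, a i = g * z i := by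
    intro a
    by_cases h : a = 0
    · exact ⟨0, 0, fun h' => absurd h h'⟩
    · obtain ⟨g, z, h1⟩ := exists_prim a h
      exact ⟨g, z, fun _ => h1⟩
  choose pg pz hpz using hex
  have hmex : ∀ z : Fin (k + 3) → ℤ, ∃ m : Fin (k + 3) → ℤ,
      (∃ m, Rat' (c (rl z)) m) → Rat' (c (rl z)) m := by
    intro z
    by_cases h : ∃ m, Rat' (c (rl z)) m
    · obtain ⟨m, hm⟩ := h
      exact ⟨m, fun _ => hm⟩
    · exact ⟨0, fun h' => absurd h' h⟩
  choose mz hmz using hmex
  obtain ⟨f, hf⟩ : ∃ f : (Fin (k + 3) → ℤ) → ℝ, f = fun z =>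
      if (∃ m, Rat' (c (rl z)) m) then 1 / (sz (mz z) : ℝ) else 0 := ⟨_, rfl⟩
  have hf0 : ∀ z, 0 ≤ f z := by
    intro z
    rw [hf]
    dsimp only
    split_ifs
    · positivity
    · exact le_rfl
  -- each `a`
  have hstep : ∀ a ∈ A, ((hp t (c (rl a))).card : ℝ) ≤
      (N : ℝ) ^ (k + 2) * f (pz a) + 2 ^ (k + 2) * (N : ℝ) ^ (k + 1) := by
    intro a ha
    rw [hA, mem_erase] at ha
    obtain ⟨hg, hp1, hai⟩ := hpz a ha.1
    have hgR : ((pg a : ℕ) : ℝ) ≠ 0 := by
      have : (0 : ℝ) < pg a := by exact_mod_cast hg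
      exact this.ne'
    have e1 : rl a = ((pg a : ℕ) : ℝ) • rl (pz a) := by
      funext i
      rw [Pi.smul_apply, smul_eq_mul]
      unfold rl
      rw [hai i]
      push_cast
      rfl
    rw [e1, map_smul, hp_smul t _ hgR]
    have hc0 : c (rl (pz a)) ≠ 0 := by
      intro h0
      have h1 : rl (pz a) = 0 := hinj (by rw [h0, map_zero])
      exact rl_ne hp1.ne h1
    by_cases h : ∃ m, Rat' (c (rl (pz a))) m
    · have h1 := hp_rat t k (hmz _ h)
      rw [← hN] at h1
      have e2 : f (pz a) = 1 / (sz (mz (pz a)) : ℝ) := by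
        rw [hf]
        exact if_pos h
      rw [e2]
      exact h1
    · have h1 := hp_irr t k hc0 h
      rw [← hN] at h1
      have e2 : f (pz a) = 0 := by
        rw [hf]
        exact if_neg h
      rw [e2, mul_zero, zero_add]
      refine h1.trans ?_
      have h2 : (1 : ℝ) ≤ 2 ^ (k + 2) := one_le_pow₀ (by norm_num)
      have h3 : 0 ≤ (N : ℝ) ^ (k + 1) := by positivity
      nlinarith
  have hcardA : (A.card : ℝ) ≤ (N : ℝ) ^ (k + 3) := by
    have h1 : A.card ≤ (Box (k + 3) t).card := by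
      rw [hA]
      exact card_le_card (erase_subset _ _)
    rw [card_Box, ← hN] at h1
    exact_mod_cast h1
  -- the sum over primitive vectors
  have hprim : ∀ z ∈ A.image pz, Prim z := by
    intro z hz
    rw [mem_image] at hz
    obtain ⟨a, ha, rfl⟩ := hz
    rw [hA, mem_erase] at ha
    exact (hpz a ha.1).2.1
  have hfib : ∀ z ∈ A.image pz, (((A.filter (fun a => pz a = z)).card : ℕ) : ℝ) ≤
      N * (1 / (sz z : ℝ)) := by
    intro z hzim
    have hs := sz_pos (hprim z hzim).ne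
    have hsR : (0 : ℝ) < sz z := by exact_mod_cast hs
    have h1 : (A.filter (fun a => pz a = z)).card ≤ (Finset.Icc 1 (t / sz z)).card := by
      refine card_le_card_of_injOn pg ?_ ?_
      · intro a ha
        rw [mem_coe, mem_filter, hA, mem_erase] at ha
        obtain ⟨⟨ha0, hab⟩, haz⟩ := ha
        obtain ⟨hg, _, hai⟩ := hpz a ha0
        rw [haz] at hai
        rw [mem_coe, Finset.mem_Icc]
        refine ⟨hg, ?_⟩
        rw [Nat.le_div_iff_mul_le hs]
        obtain ⟨i, hi⟩ := exists_sz z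
        rw [← hi]
        have h2 := (mem_Box_iff_sz.mp hab)
        have h3 := le_sz a i
        rw [hai i, Int.natAbs_mul, Int.natAbs_natCast] at h3
        exact h3.trans h2
      · intro a ha a' ha' he
        rw [mem_coe, mem_filter, hA, mem_erase] at ha ha'
        have h1 := (hpz a ha.1.1).2.2
        have h2 := (hpz a' ha'.1.1).2.2
        funext i
        rw [h1 i, h2 i, he, ha.2, ha'.2]
    rw [Nat.card_Icc] at h1
    have h2 : (((A.filter (fun a => pz a = z)).card : ℕ) : ℝ) ≤ ((t / sz z : ℕ) : ℝ) := by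
      have : (A.filter (fun a => pz a = z)).card ≤ t / sz z := by
        rwa [Nat.add_sub_cancel] at h1
      exact_mod_cast this
    refine h2.trans (Nat.cast_div_le.trans ?_)
    rw [div_eq_mul_one_div]
    refine mul_le_mul_of_nonneg_right ?_ (by positivity)
    have : t ≤ N := by omega
    exact_mod_cast this
  have hsum : ∑ a ∈ A, f (pz a) ≤ N * (2 * (C0 * (N : ℝ) ^ (k + 1))) := by
    rw [sum_comp f pz]
    have h1 : ∀ z ∈ A.image pz, (A.filter (fun a => pz a = z)).card • f z ≤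
        N * ((1 / (sz z : ℝ)) ^ 2 + f z ^ 2) := by
      intro z hz
      rw [nsmul_eq_mul]
      have h2 := mul_le_mul_of_nonneg_right (hfib z hz) (hf0 z)
      refine h2.trans ?_
      rw [mul_assoc]
      refine mul_le_mul_of_nonneg_left ?_ hN0.le
      nlinarith [sq_nonneg (1 / (sz z : ℝ) - f z), sq_nonneg (1 / (sz z : ℝ)), sq_nonneg (f z)]
    refine (sum_le_sum h1).trans ?_
    rw [← mul_sum, sum_add_distrib]
    refine mul_le_mul_of_nonneg_left ?_ hN0.le
    have hcim : ((A.image pz).card : ℝ) ≤ (N : ℝ) ^ (k + 3) := by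
      refine le_trans ?_ hcardA
      exact_mod_cast card_image_le
    have h2 : ∑ z ∈ A.image pz, (1 / (sz z : ℝ)) ^ 2 ≤ C0 * (N : ℝ) ^ (k + 1) :=
      hwt N hN1 _ (fun z hz => (hprim z hz).ne) hcim
    have h3 : ∑ z ∈ A.image pz, f z ^ 2 ≤ C0 * (N : ℝ) ^ (k + 1) := by
      obtain ⟨R, hR⟩ : ∃ R, R = (A.image pz).filter (fun z => ∃ m, Rat' (c (rl z)) m) := ⟨_, rfl⟩
      have h4 : ∑ z ∈ A.image pz, f z ^ 2 = ∑ z ∈ R, (1 / (sz (mz z) : ℝ)) ^ 2 := by
        rw [hR, sum_filter]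
        refine sum_congr rfl fun z _ => ?_
        rw [hf]
        dsimp only
        split_ifs
        · rfl
        · norm_num
      have hinjR : Set.InjOn mz R := by
        intro z hz z' hz' he
        rw [hR, mem_coe, mem_filter] at hz hz'
        obtain ⟨_, l, hl, hzl⟩ := hmz z hz.2
        obtain ⟨_, l', hl', hzl'⟩ := hmz z' hz'.2
        have h5 : l' • c (rl z) = l • c (rl z') := by
          funext i
          rw [Pi.smul_apply, Pi.smul_apply, smul_eq_mul, smul_eq_mul, hzl i, hzl' i, he]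
          ring
        rw [← map_smul, ← map_smul] at h5
        have h6 := hinj h5
        refine prim_unique (hprim z hz.1) (hprim z' hz'.1) hl' hl (fun i => ?_)
        have := congrFun h6 i
        rw [Pi.smul_apply, Pi.smul_apply, smul_eq_mul, smul_eq_mul] at this
        exact this
      rw [h4, ← sum_image (f := fun m => (1 / (sz m : ℝ)) ^ 2) hinjR]
      refine hwt N hN1 _ ?_ ?_
      · intro m hm
        rw [mem_image] at hm
        obtain ⟨z, hz, rfl⟩ := hm
        rw [hR, mem_filter] at hz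
        exact (hmz z hz.2).1.ne
      · refine le_trans ?_ hcim
        have h7 : (R.image mz).card ≤ (A.image pz).card := by
          refine card_image_le.trans ?_
          rw [hR]
          exact card_filter_le _ _
        exact_mod_cast h7
    linarith
  have htot : ∑ a ∈ A, ((hp t (c (rl a))).card : ℝ) ≤
      (2 ^ (k + 2) + 2 * C0) * (N : ℝ) ^ (2 * k + 4) := by
    refine (sum_le_sum hstep).trans ?_
    rw [sum_add_distrib, ← mul_sum, sum_const, nsmul_eq_mul]
    have h1 : (N : ℝ) ^ (k + 2) * ∑ a ∈ A, f (pz a) ≤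
        (N : ℝ) ^ (k + 2) * (N * (2 * (C0 * (N : ℝ) ^ (k + 1)))) :=
      mul_le_mul_of_nonneg_left hsum (by positivity)
    have h2 : (A.card : ℝ) * (2 ^ (k + 2) * (N : ℝ) ^ (k + 1)) ≤
        (N : ℝ) ^ (k + 3) * (2 ^ (k + 2) * (N : ℝ) ^ (k + 1)) :=
      mul_le_mul_of_nonneg_right hcardA (by positivity)
    have e1 : (N : ℝ) ^ (k + 2) * (N * (2 * (C0 * (N : ℝ) ^ (k + 1)))) =
        2 * C0 * (N : ℝ) ^ (2 * k + 4) := by
      have : (2 * k + 4) = (k + 2) + 1 + (k + 1) := by ring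
      rw [this, pow_add, pow_add]
      ring
    have e2 : (N : ℝ) ^ (k + 3) * (2 ^ (k + 2) * (N : ℝ) ^ (k + 1)) =
        2 ^ (k + 2) * (N : ℝ) ^ (2 * k + 4) := by
      have : (2 * k + 4) = (k + 3) + (k + 1) := by ring
      rw [this, pow_add]
      ring
    rw [e1] at h1
    rw [e2] at h2
    linarith
  rw [hA] at htot
  linarith

end

end Vale.Agent.P054
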