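import Mathlib

/-!
P054: number of integer points of a cube on a hyperplane through the origin.
-/

namespace Vale.Agent.P054

open Finset

noncomputable section

/-- the cube of integer points with coordinates of absolute value at most `t` -/
def Box (d t : ℕ) : Finset (Fin d → ℤ) := Fintype.piFinset fun _ => Finset.Icc (-(t : ℤ)) t

theorem mem_Box {d t : ℕ} {x : Fin d → ℤ} : x ∈ Box d t ↔ ∀ i, -(t : ℤ) ≤ x i ∧ x i ≤ t := by
  simp [Box, Fintype.mem_piFinset, Finset.mem_Icc]

theorem card_Box (d t : ℕ) : (Box d t).card = (2 * t + 1) ^ d := by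
  unfold Box
  rw [Fintype.card_piFinset]
  simp only [Int.card_Icc, prod_const, card_univ, Fintype.card_fin]
  congr 1
  omega

/-- solutions of a linear congruence in an interval -/
theorem cong (t : ℕ) (m c : ℤ) (q : ℕ) (hq : 0 < q) :
    (((Finset.Icc (-(t : ℤ)) t).filter (fun b => (q : ℤ) ∣ m * b - c)).card : ℝ) ≤
      (2 * t + 1) * (Int.gcd m q : ℝ) / q + 1 := by
  have hg0 : 0 < Int.gcd m q := Int.gcd_pos_of_ne_zero_right _ (by exact_mod_cast hq.ne')
  obtain ⟨m', q', hcop, hm', hq'⟩ := Int.exists_gcd_one hg0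
  set g : ℕ := Int.gcd m q with hg
  have hgz : (0 : ℤ) < g := by exact_mod_cast hg0
  have hqz : (0 : ℤ) < q := by exact_mod_cast hq
  have hq'0 : 0 < q' := by
    by_contra hc
    push Not at hc
    have : q' * (g : ℤ) ≤ 0 := mul_nonpos_of_nonpos_of_nonneg hc hgz.le
    omega
  rcases ((Finset.Icc (-(t : ℤ)) t).filter (fun b => (q : ℤ) ∣ m * b - c)).eq_empty_or_nonempty
    with h | ⟨b0, hb0⟩
  · rw [h]
    simp only [card_empty, Nat.cast_zero]
    positivity
  · have hb0' : (q : ℤ) ∣ m * b0 - c := (mem_filter.mp hb0).2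
    have hsub : (Finset.Icc (-(t : ℤ)) t).filter (fun b => (q : ℤ) ∣ m * b - c) ⊆
        (Finset.Ico (-(t : ℤ)) (t + 1)).filter (fun b => b ≡ b0 [ZMOD q']) := by
      intro b hb
      rw [mem_filter, Finset.mem_Icc] at hb
      rw [mem_filter, Finset.mem_Ico]
      refine ⟨⟨hb.1.1, by omega⟩, ?_⟩
      have h1 : (q : ℤ) ∣ m * (b - b0) := by
        have := dvd_sub hb.2 hb0'
        have e : m * b - c - (m * b0 - c) = m * (b - b0) := by ring
        rwa [e] at this
      have h2 : q' ∣ b - b0 := by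
        rw [hq', hm'] at h1
        have e : m' * (g : ℤ) * (b - b0) = m' * (b - b0) * g := by ring
        rw [e] at h1
        have h3 : q' ∣ m' * (b - b0) := Int.dvd_of_mul_dvd_mul_right hgz.ne' h1
        exact (Int.isCoprime_iff_gcd_eq_one.mpr hcop).symm.dvd_of_dvd_mul_left h3
      refine Int.ModEq.symm ?_
      exact (Int.modEq_iff_dvd.mpr h2)
    have h1 : (((Finset.Icc (-(t : ℤ)) t).filter (fun b => (q : ℤ) ∣ m * b - c)).card : ℝ) ≤
        (((Finset.Ico (-(t : ℤ)) (t + 1)).filter (fun b => b ≡ b0 [ZMOD q'])).card : ℝ) := by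
      exact_mod_cast card_le_card hsub
    refine h1.trans ?_
    have h2 := Int.Ico_filter_modEq_card (-(t : ℤ)) (t + 1) hq'0 b0
    have hq'R : (0 : ℝ) < q' := by exact_mod_cast hq'0
    have h3 : ((((Finset.Ico (-(t : ℤ)) (t + 1)).filter (fun b => b ≡ b0 [ZMOD q'])).card : ℤ) : ℝ)
        ≤ (2 * t + 1) / (q' : ℝ) + 1 := by
      rw [h2]
      push_cast
      refine max_le ?_ (by positivity)
      have a1 := Int.ceil_lt_add_one (((t : ℚ) + 1 - b0) / q')
      have a2 := Int.le_ceil ((-(t : ℚ) - b0) / q')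
      have a3 : (((⌈((t : ℚ) + 1 - b0) / q'⌉ : ℤ) : ℚ) - ((⌈(-(t : ℚ) - b0) / q'⌉ : ℤ) : ℚ)) ≤
          (2 * t + 1) / (q' : ℚ) + 1 := by
        have e : (2 * (t : ℚ) + 1) / (q' : ℚ) = ((t : ℚ) + 1 - b0) / q' - (-(t : ℚ) - b0) / q' := by
          ring
        rw [e]
        linarith
      have a4 : (((((⌈((t : ℚ) + 1 - b0) / q'⌉ : ℤ) : ℚ) -
        ((⌈(-(t : ℚ) - b0) / q'⌉ : ℤ) : ℚ) : ℚ)) : ℝ) ≤
          (((2 * t + 1) / (q' : ℚ) + 1 : ℚ) : ℝ) := by exact_mod_cast a3
      push_cast at a4
      exact a4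
    have h4 : (2 * t + 1) * (g : ℝ) / q = (2 * t + 1) / (q' : ℝ) := by
      have e : (q : ℝ) = (q' : ℝ) * (g : ℝ) := by exact_mod_cast hq'
      rw [e]
      have hgR : (0 : ℝ) < g := by exact_mod_cast hg0
      field_simp
    rw [h4]
    exact_mod_cast h3

/-- solutions of a primitive linear congruence in a cube -/
theorem cnt (t : ℕ) : ∀ (k : ℕ) (m : Fin k → ℤ) (q : ℕ) (c : ℤ), 0 < q →
    (∀ e : ℤ, e ∣ q → (∀ i, e ∣ m i) → IsUnit e) →
    (((Box k t).filter (fun b => (q : ℤ) ∣ ∑ i, m i * b i - c)).card : ℝ) ≤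
      (2 * t + 1) ^ k / q + (2 ^ k - 1) * ((2 * t + 1) ^ k / (2 * t + 1)) := by
  intro k
  induction k with
  | zero =>
    intro m q c hq hu
    have h1 : IsUnit (q : ℤ) := hu q dvd_rfl (fun i => i.elim0)
    have h2 : q = 1 := by
      have := Int.isUnit_iff.mp h1
      omega
    subst h2
    have h3 : ((Box 0 t).filter (fun b => ((1 : ℕ) : ℤ) ∣ ∑ i, m i * b i - c)).card ≤ 1 := by
      refine (card_filter_le _ _).trans ?_
      rw [card_Box]
      simp
    have h4 : (((Box 0 t).filter (fun b => ((1 : ℕ) : ℤ) ∣ ∑ i, m i * b i - c)).card : ℝ) ≤ 1 := by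
      exact_mod_cast h3
    simpa using h4
  | succ k ih =>
    intro m q c hq hu
    obtain ⟨N, hN⟩ : ∃ N : ℝ, N = 2 * t + 1 := ⟨_, rfl⟩
    have hN1 : 1 ≤ N := by
      rw [hN]
      have : (0 : ℝ) ≤ t := Nat.cast_nonneg t
      linarith
    have hN0 : 0 < N := by linarith
    set g : ℕ := Int.gcd (m 0) q with hg
    have hg0 : 0 < g := Int.gcd_pos_of_ne_zero_right _ (by exact_mod_cast hq.ne')
    have hgR : (0 : ℝ) < g := by exact_mod_cast hg0
    have hqR : (0 : ℝ) < q := by exact_mod_cast hq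
    have hgm : (g : ℤ) ∣ m 0 := Int.gcd_dvd_left _ _
    have hgq : (g : ℤ) ∣ q := Int.gcd_dvd_right _ _
    have hgq1 : (g : ℝ) / q ≤ 1 := by
      rw [div_le_one hqR]
      have : g ≤ q := Nat.le_of_dvd hq (by exact_mod_cast hgq)
      exact_mod_cast this
    have hg1 : 1 / (g : ℝ) ≤ 1 := by
      rw [div_le_one hgR]
      exact_mod_cast hg0
    set S := (Box (k + 1) t).filter (fun b => (q : ℤ) ∣ ∑ i, m i * b i - c) with hS
    set S' := (Box k t).filter (fun b => (g : ℤ) ∣ ∑ i : Fin k, m i.succ * b i - c) with hS'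
    have hIH : (S'.card : ℝ) ≤ N ^ k / g + (2 ^ k - 1) * (N ^ k / N) := by
      have := ih (fun i => m i.succ) g c hg0 (by
        intro e he hei
        refine hu e (he.trans hgq) (fun i => ?_)
        refine Fin.cases (he.trans hgm) (fun j => hei j) i)
      rw [hN]
      exact this
    have himg : S.image (fun b => fun i : Fin k => b i.succ) ⊆ S' := by
      intro b' hb'
      rw [mem_image] at hb'
      obtain ⟨b, hb, rfl⟩ := hb'
      rw [hS, mem_filter, mem_Box] at hb
      rw [hS', mem_filter, mem_Box]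
      refine ⟨fun i => hb.1 i.succ, ?_⟩
      have h1 := hgq.trans hb.2
      rw [Fin.sum_univ_succ] at h1
      have h2 : (g : ℤ) ∣ m 0 * b 0 := hgm.mul_right _
      have h3 := dvd_sub h1 h2
      have e : m 0 * b 0 + ∑ i : Fin k, m i.succ * b i.succ - c - m 0 * b 0 =
          ∑ i : Fin k, m i.succ * b i.succ - c := by ring
      rwa [e] at h3
    have hfib : ∀ b' ∈ S.image (fun b => fun i : Fin k => b i.succ),
        (S.filter (fun b => (fun i : Fin k => b i.succ) = b')).card ≤ ⌊N * g / q + 1⌋₊ := by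
      intro b' _
      rw [Nat.le_floor_iff (by positivity)]
      have h1 := cong t (m 0) (c - ∑ i : Fin k, m i.succ * b' i) q hq
      rw [← hg, ← hN] at h1
      refine le_trans ?_ h1
      have : (S.filter (fun b => (fun i : Fin k => b i.succ) = b')).card ≤
          ((Finset.Icc (-(t : ℤ)) t).filter
            (fun b => (q : ℤ) ∣ m 0 * b - (c - ∑ i : Fin k, m i.succ * b' i))).card := by
        refine card_le_card_of_injOn (fun b => b 0) ?_ ?_
        · intro b hb
          rw [mem_coe, mem_filter, hS, mem_filter, mem_Box] at hb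
          rw [mem_coe, mem_filter, Finset.mem_Icc]
          refine ⟨hb.1.1 0, ?_⟩
          have h2 := hb.1.2
          rw [Fin.sum_univ_succ] at h2
          have e : m 0 * b 0 - (c - ∑ i : Fin k, m i.succ * b' i) =
              m 0 * b 0 + ∑ i : Fin k, m i.succ * b i.succ - c := by
            rw [← hb.2]
            ring
          rw [e]
          exact h2
        · intro b hb b2 hb2 h
          rw [mem_coe, mem_filter] at hb hb2
          funext i
          refine Fin.cases h (fun j => ?_) i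
          have h3 := congrFun hb.2 j
          have h4 := congrFun hb2.2 j
          exact h3.trans h4.symm
      exact_mod_cast this
    have h5 := card_le_mul_card_image S _ hfib
    have h6 : (S.card : ℝ) ≤ (N * g / q + 1) * S'.card := by
      have h7 : (S.card : ℝ) ≤ (⌊N * g / q + 1⌋₊ : ℝ) *
          ((S.image (fun b => fun i : Fin k => b i.succ)).card : ℝ) := by exact_mod_cast h5
      refine h7.trans ?_
      refine mul_le_mul (Nat.floor_le (by positivity)) ?_ (by positivity) (by positivity)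
      exact_mod_cast card_le_card himg
    rw [← hN]
    refine h6.trans ?_
    have h8 : (N * g / q + 1) * (S'.card : ℝ) ≤
        (N * g / q + 1) * (N ^ k / g + (2 ^ k - 1) * (N ^ k / N)) :=
      mul_le_mul_of_nonneg_left hIH (by positivity)
    refine h8.trans ?_
    have hk1 : (1 : ℝ) ≤ 2 ^ k := one_le_pow₀ (by norm_num)
    have hNk : 0 < N ^ k := by positivity
    have e1 : (N * g / q + 1) * (N ^ k / g + (2 ^ k - 1) * (N ^ k / N)) =
        N ^ (k + 1) / q + (2 ^ k - 1) * N ^ k * (g / q) + N ^ k * (1 / g)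
          + (2 ^ k - 1) * N ^ k * (1 / N) := by
      field_simp
      ring
    rw [e1]
    have e2 : N ^ (k + 1) / N = N ^ k := by
      rw [pow_succ]
      field_simp
    rw [e2]
    have hA : 0 ≤ (2 ^ k - 1) * N ^ k := mul_nonneg (by linarith) hNk.le
    have f1 : (2 ^ k - 1) * N ^ k * (g / q) ≤ (2 ^ k - 1) * N ^ k * 1 :=
      mul_le_mul_of_nonneg_left hgq1 hA
    have f2 : N ^ k * (1 / (g : ℝ)) ≤ N ^ k * 1 := mul_le_mul_of_nonneg_left hg1 hNk.le
    have f3 : (2 ^ k - 1) * N ^ k * (1 / N) ≤ (2 ^ k - 1) * N ^ k * 1 := by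
      refine mul_le_mul_of_nonneg_left ?_ hA
      rw [div_le_one hN0]
      exact hN1
    have e3 : (2 : ℝ) ^ (k + 1) = 2 * 2 ^ k := by ring
    rw [e3]
    linarith

/-- solutions of a primitive linear equation in a cube -/
theorem hyper (t k : ℕ) (m : Fin (k + 1) → ℤ) (hu : ∀ e : ℤ, (∀ i, e ∣ m i) → IsUnit e)
    (j : Fin (k + 1)) (hj : m j ≠ 0) :
    (((Box (k + 1) t).filter (fun b => ∑ i, m i * b i = 0)).card : ℝ) ≤
      (2 * t + 1) ^ k / ((m j).natAbs : ℝ) + (2 ^ k - 1) * ((2 * t + 1) ^ k / (2 * t + 1)) := by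
  have h1 := cnt t k (fun i => m (j.succAbove i)) (m j).natAbs 0 (Int.natAbs_pos.mpr hj) (by
    intro e he hei
    refine hu e (fun i => ?_)
    rcases Fin.eq_self_or_eq_succAbove j i with h | ⟨i', h⟩
    · rw [h]
      exact Int.dvd_natAbs.mp he
    · rw [h]
      exact hei i')
  refine le_trans ?_ h1
  have h2 : ((Box (k + 1) t).filter (fun b => ∑ i, m i * b i = 0)).card ≤
      ((Box k t).filter (fun b => (((m j).natAbs : ℕ) : ℤ) ∣
        ∑ i, m (j.succAbove i) * b i - 0)).card := by
    refine card_le_card_of_injOn (fun b => fun i => b (j.succAbove i)) ?_ ?_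
    · intro b hb
      rw [mem_coe, mem_filter, mem_Box] at hb
      rw [mem_coe, mem_filter, mem_Box]
      refine ⟨fun i => hb.1 _, ?_⟩
      have h3 := hb.2
      rw [Fin.sum_univ_succAbove _ j] at h3
      rw [Int.natAbs_dvd, sub_zero]
      have e : ∑ i, m (j.succAbove i) * b (j.succAbove i) = -(m j * b j) := by linarith
      rw [e, dvd_neg]
      exact dvd_mul_right _ _
    · intro b hb b2 hb2 h
      rw [mem_coe, mem_filter] at hb hb2
      have h3 := hb.2
      have h4 := hb2.2
      rw [Fin.sum_univ_succAbove _ j] at h3 h4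
      have h5 : ∑ i, m (j.succAbove i) * b (j.succAbove i) =
          ∑ i, m (j.succAbove i) * b2 (j.succAbove i) :=
        sum_congr rfl fun i _ => by
          have h8 : b (j.succAbove i) = b2 (j.succAbove i) := congrFun h i
          rw [h8]
      have h6 : m j * b j = m j * b2 j := by linarith
      have h7 := mul_left_cancel₀ hj h6
      funext i
      rcases Fin.eq_self_or_eq_succAbove j i with h | ⟨i', h'⟩
      · rw [h]
        exact h7
      · rw [h']
        exact congrFun h i'
  exact_mod_cast h2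

end

end Vale.Agent.P054
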