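import Vale.Agent.P054.Sec

/-!
P054: sums of `1 / |z| ^ 2` over finite sets of nonzero integer vectors.
-/

namespace Vale.Agent.P054

open Finset

noncomputable section

/-- sup norm of an integer vector -/
def sz {d : ℕ} (z : Fin d → ℤ) : ℕ := univ.sup fun i => (z i).natAbs

theorem le_sz {d : ℕ} (z : Fin d → ℤ) (i : Fin d) : (z i).natAbs ≤ sz z :=
  Finset.le_sup (f := fun i => (z i).natAbs) (mem_univ i)

theorem sz_le {d : ℕ} {z : Fin d → ℤ} {t : ℕ} (h : ∀ i, (z i).natAbs ≤ t) : sz z ≤ t :=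
  Finset.sup_le fun i _ => h i

theorem exists_sz {d : ℕ} (z : Fin (d + 1) → ℤ) : ∃ i, (z i).natAbs = sz z := by
  obtain ⟨i, _, hi⟩ := Finset.exists_mem_eq_sup univ univ_nonempty (fun i => (z i).natAbs)
  exact ⟨i, hi.symm⟩

theorem sz_pos {d : ℕ} {z : Fin d → ℤ} (h : z ≠ 0) : 0 < sz z := by
  by_contra hc
  apply h
  funext i
  have h1 := le_sz z i
  have : (z i).natAbs = 0 := by omega
  exact Int.natAbs_eq_zero.mp this

theorem mem_Box_iff_sz {d t : ℕ} {z : Fin d → ℤ} : z ∈ Box d t ↔ sz z ≤ t := by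
  rw [mem_Box]
  constructor
  · intro h
    exact sz_le fun i => by have := h i; omega
  · intro h i
    have := le_sz z i
    omega

/-- number of integer vectors of sup norm exactly `r` -/
theorem sphere (k r : ℕ) (hr : 0 < r) (Z : Finset (Fin (k + 3) → ℤ)) :
    ((Z.filter (fun z => sz z = r)).card : ℝ) ≤ 2 * (k + 3) * (3 * r) ^ (k + 2) := by
  have hsub : Z.filter (fun z => sz z = r) ⊆
      (univ : Finset (Fin (k + 3))).biUnion (fun i => ({(r : ℤ), -(r : ℤ)} : Finset ℤ).biUnion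
        (fun e => Fintype.piFinset (fun j => if j = i then {e} else Finset.Icc (-(r : ℤ)) r))) := by
    intro z hz
    rw [mem_filter] at hz
    obtain ⟨i, hi⟩ := exists_sz z
    rw [mem_biUnion]
    refine ⟨i, mem_univ i, ?_⟩
    rw [mem_biUnion]
    refine ⟨z i, ?_, ?_⟩
    · rw [mem_insert, mem_singleton]
      omega
    · rw [Fintype.mem_piFinset]
      intro j
      split_ifs with h
      · rw [mem_singleton, h]
      · rw [Finset.mem_Icc]
        have := le_sz z j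
        omega
  have h1 : (Z.filter (fun z => sz z = r)).card ≤ (k + 3) * (2 * (2 * r + 1) ^ (k + 2)) := by
    refine (card_le_card hsub).trans ?_
    refine (card_biUnion_le_card_mul _ _ (2 * (2 * r + 1) ^ (k + 2)) ?_).trans (by simp)
    intro i _
    refine (card_biUnion_le_card_mul _ _ ((2 * r + 1) ^ (k + 2)) ?_).trans ?_
    · intro e _
      rw [Fintype.card_piFinset]
      rw [Fin.prod_univ_succAbove _ i]
      simp only [if_true, card_singleton, one_mul]
      have : ∀ j : Fin (k + 2), (if i.succAbove j = i then ({e} : Finset ℤ)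
          else Finset.Icc (-(r : ℤ)) r).card = 2 * r + 1 := by
        intro j
        rw [if_neg (Fin.succAbove_ne i j), Int.card_Icc]
        omega
      simp only [this, prod_const, card_univ, Fintype.card_fin, le_refl]
    · exact Nat.mul_le_mul_right _ (card_insert_le _ _ |>.trans (by simp))
  have h2 : (2 * r + 1) ^ (k + 2) ≤ (3 * r) ^ (k + 2) := Nat.pow_le_pow_left (by omega) _
  have h3 : (Z.filter (fun z => sz z = r)).card ≤ (k + 3) * (2 * (3 * r) ^ (k + 2)) :=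
    h1.trans (Nat.mul_le_mul_left _ (Nat.mul_le_mul_left _ h2))
  have h4 : ((Z.filter (fun z => sz z = r)).card : ℝ) ≤ ((k + 3) * (2 * (3 * r) ^ (k + 2)) : ℕ) := by
    exact_mod_cast h3
  refine h4.trans (le_of_eq ?_)
  push_cast
  ring

/-- [WT] -/
theorem wt_sum (k : ℕ) : ∃ C : ℝ, 0 < C ∧ ∀ (N : ℕ), 1 ≤ N → ∀ Z : Finset (Fin (k + 3) → ℤ),
    (∀ z ∈ Z, z ≠ 0) → (Z.card : ℝ) ≤ (N : ℝ) ^ (k + 3) →
    ∑ z ∈ Z, (1 / (sz z : ℝ)) ^ 2 ≤ C * (N : ℝ) ^ (k + 1) := by
  refine ⟨2 * (k + 3) * 3 ^ (k + 2) + 1, by positivity, ?_⟩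
  intro N hN Z hZ hcard
  have hNR : (1 : ℝ) ≤ N := by exact_mod_cast hN
  have hN0 : (0 : ℝ) < N := by linarith
  rw [← sum_filter_add_sum_filter_not Z (fun z => sz z ≤ N)]
  have hA : ∑ z ∈ Z.filter (fun z => sz z ≤ N), (1 / (sz z : ℝ)) ^ 2 ≤
      2 * (k + 3) * 3 ^ (k + 2) * (N : ℝ) ^ (k + 1) := by
    have h1 : ∑ z ∈ Z.filter (fun z => sz z ≤ N), (1 / (sz z : ℝ)) ^ 2 =
        ∑ r ∈ Finset.Icc 1 N, ∑ z ∈ (Z.filter (fun z => sz z ≤ N)).filter (fun z => sz z = r),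
          (1 / (sz z : ℝ)) ^ 2 := by
      refine (sum_fiberwise_of_maps_to ?_ _).symm
      intro z hz
      rw [mem_filter] at hz
      rw [Finset.mem_Icc]
      exact ⟨sz_pos (hZ z hz.1), hz.2⟩
    rw [h1]
    have h2 : ∀ r ∈ Finset.Icc 1 N,
        ∑ z ∈ (Z.filter (fun z => sz z ≤ N)).filter (fun z => sz z = r), (1 / (sz z : ℝ)) ^ 2 ≤
          2 * (k + 3) * 3 ^ (k + 2) * (N : ℝ) ^ k := by
      intro r hr
      rw [Finset.mem_Icc] at hr
      have hr0 : (0 : ℝ) < r := by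
        have : 0 < r := by omega
        exact_mod_cast this
      have h3 : ∑ z ∈ (Z.filter (fun z => sz z ≤ N)).filter (fun z => sz z = r),
          (1 / (sz z : ℝ)) ^ 2 =
          (((Z.filter (fun z => sz z ≤ N)).filter (fun z => sz z = r)).card : ℝ) *
            (1 / (r : ℝ)) ^ 2 := by
        rw [← nsmul_eq_mul, ← sum_const]
        refine sum_congr rfl fun z hz => ?_
        rw [(mem_filter.mp hz).2]
      rw [h3]
      have h4 := sphere k r (by omega) (Z.filter (fun z => sz z ≤ N))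
      have h5 : (0 : ℝ) ≤ (1 / (r : ℝ)) ^ 2 := by positivity
      refine (mul_le_mul_of_nonneg_right h4 h5).trans ?_
      have e : 2 * ((k : ℝ) + 3) * (3 * (r : ℝ)) ^ (k + 2) * (1 / (r : ℝ)) ^ 2 =
          2 * ((k : ℝ) + 3) * 3 ^ (k + 2) * (r : ℝ) ^ k := by
        rw [mul_pow]
        have : (r : ℝ) ^ (k + 2) = (r : ℝ) ^ k * (r : ℝ) ^ 2 := pow_add _ _ _
        rw [this]
        field_simp
      rw [e]
      refine mul_le_mul_of_nonneg_left ?_ (by positivity)
      refine pow_le_pow_left₀ hr0.le ?_ k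
      exact_mod_cast hr.2
    refine (sum_le_sum h2).trans ?_
    rw [sum_const, nsmul_eq_mul, Nat.card_Icc]
    have e : ((N + 1 - 1 : ℕ) : ℝ) = N := by simp
    rw [e]
    refine le_of_eq ?_
    ring
  have hB : ∑ z ∈ Z.filter (fun z => ¬ sz z ≤ N), (1 / (sz z : ℝ)) ^ 2 ≤ (N : ℝ) ^ (k + 1) := by
    have h1 : ∀ z ∈ Z.filter (fun z => ¬ sz z ≤ N), (1 / (sz z : ℝ)) ^ 2 ≤ (1 / (N : ℝ)) ^ 2 := by
      intro z hz
      have h2 := (mem_filter.mp hz).2
      push Not at h2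
      have h3 : (N : ℝ) ≤ sz z := by exact_mod_cast h2.le
      have h4 : 1 / (sz z : ℝ) ≤ 1 / N := one_div_le_one_div_of_le hN0 h3
      exact pow_le_pow_left₀ (by positivity) h4 2
    refine (sum_le_sum h1).trans ?_
    rw [sum_const, nsmul_eq_mul]
    have h2 : ((Z.filter (fun z => ¬ sz z ≤ N)).card : ℝ) ≤ (N : ℝ) ^ (k + 3) := by
      refine le_trans ?_ hcard
      exact_mod_cast card_filter_le _ _
    calc ((Z.filter (fun z => ¬ sz z ≤ N)).card : ℝ) * (1 / (N : ℝ)) ^ 2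
        ≤ (N : ℝ) ^ (k + 3) * (1 / (N : ℝ)) ^ 2 :=
          mul_le_mul_of_nonneg_right h2 (by positivity)
      _ = (N : ℝ) ^ (k + 1) := by
        have : (N : ℝ) ^ (k + 3) = (N : ℝ) ^ (k + 1) * (N : ℝ) ^ 2 := by
          rw [← pow_add]
        rw [this]
        field_simp
  have e : (2 * ((k : ℝ) + 3) * 3 ^ (k + 2) + 1) * (N : ℝ) ^ (k + 1) =
      2 * ((k : ℝ) + 3) * 3 ^ (k + 2) * (N : ℝ) ^ (k + 1) + (N : ℝ) ^ (k + 1) := by ring
  rw [e]
  exact add_le_add hA hB

end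

end Vale.Agent.P054
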